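import Mathlib

/-!
# Analytic core for S0359 (helper99): Clarkson equality case and midpoint rigidity in `ℓ^p`

Own derivation (elementary): with `q = p/2`, `X = (a+b)^2`, `Y = (a-b)^2`, `x = a^2`, `y = b^2`,
`X + Y = 2 (x + y)`; power mean (convexity / concavity of `t ^ q`) and strict super/sub-additivity
of `t ^ q` give the sign of the defect and its equality case.
-/

set_option autoImplicit false
open scoped ENNReal

namespace Crest.Agent.Helper99.S0359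

/-- strict superadditivity of `t ^ q`, `q > 1`. -/
theorem rpow_add_lt_of_one_lt {q : ℝ} (hq : 1 < q) {x y : ℝ} (hx : 0 < x) (hy : 0 < y) :
    x ^ q + y ^ q < (x + y) ^ q := by
  have hxy : 0 < x + y := by positivity
  have h1 : x ^ (q - 1) < (x + y) ^ (q - 1) :=
    Real.rpow_lt_rpow hx.le (by linarith) (by linarith)
  have h2 : y ^ (q - 1) < (x + y) ^ (q - 1) :=
    Real.rpow_lt_rpow hy.le (by linarith) (by linarith)
  have e1 : x ^ q = x * x ^ (q - 1) := by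
    rw [Real.rpow_sub_one hx.ne']; field_simp
  have e2 : y ^ q = y * y ^ (q - 1) := by
    rw [Real.rpow_sub_one hy.ne']; field_simp
  have e3 : (x + y) ^ q = (x + y) * (x + y) ^ (q - 1) := by
    rw [Real.rpow_sub_one hxy.ne']; field_simp
  rw [e1, e2, e3]
  nlinarith [mul_lt_mul_of_pos_left h1 hx, mul_lt_mul_of_pos_left h2 hy]

/-- strict subadditivity of `t ^ q`, `q < 1`. -/
theorem rpow_add_gt_of_lt_one {q : ℝ} (hq : q < 1) {x y : ℝ} (hx : 0 < x) (hy : 0 < y) :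
    (x + y) ^ q < x ^ q + y ^ q := by
  have hxy : 0 < x + y := by positivity
  have h1 : (x + y) ^ (q - 1) < x ^ (q - 1) :=
    Real.rpow_lt_rpow_of_neg hx (by linarith) (by linarith)
  have h2 : (x + y) ^ (q - 1) < y ^ (q - 1) :=
    Real.rpow_lt_rpow_of_neg hy (by linarith) (by linarith)
  have e1 : x ^ q = x * x ^ (q - 1) := by
    rw [Real.rpow_sub_one hx.ne']; field_simp
  have e2 : y ^ q = y * y ^ (q - 1) := by
    rw [Real.rpow_sub_one hy.ne']; field_simp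
  have e3 : (x + y) ^ q = (x + y) * (x + y) ^ (q - 1) := by
    rw [Real.rpow_sub_one hxy.ne']; field_simp
  rw [e1, e2, e3]
  nlinarith [mul_lt_mul_of_pos_left h1 hx, mul_lt_mul_of_pos_left h2 hy]

theorem abs_rpow_eq_sq_rpow (t p : ℝ) : |t| ^ p = (t ^ 2) ^ (p / 2) := by
  rw [← sq_abs t, ← Real.rpow_natCast (|t|) 2, ← Real.rpow_mul (abs_nonneg t)]
  congr 1
  push_cast
  ring

/-- The scalar Clarkson defect `|a+b|^p + |a-b|^p - 2|a|^p - 2|b|^p`. -/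
noncomputable def defect (p a b : ℝ) : ℝ :=
  |a + b| ^ p + |a - b| ^ p - 2 * |a| ^ p - 2 * |b| ^ p

theorem defect_nonneg {p : ℝ} (hp : 2 < p) (a b : ℝ) : 0 ≤ defect p a b := by
  unfold defect
  rw [abs_rpow_eq_sq_rpow (a + b), abs_rpow_eq_sq_rpow (a - b), abs_rpow_eq_sq_rpow a,
    abs_rpow_eq_sq_rpow b]
  have hq : 1 ≤ p / 2 := by linarith
  have hX : (0 : ℝ) ≤ (a + b) ^ 2 := sq_nonneg _
  have hY : (0 : ℝ) ≤ (a - b) ^ 2 := sq_nonneg _
  have hx : (0 : ℝ) ≤ a ^ 2 := sq_nonneg _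
  have hy : (0 : ℝ) ≤ b ^ 2 := sq_nonneg _
  have hconv := (convexOn_rpow hq).2 (Set.mem_Ici.2 hX) (Set.mem_Ici.2 hY)
    (by norm_num : (0 : ℝ) ≤ 1 / 2) (by norm_num : (0 : ℝ) ≤ 1 / 2) (by norm_num : (1 / 2 : ℝ) + 1 / 2 = 1)
  simp only [smul_eq_mul] at hconv
  have hmid : (1 / 2 : ℝ) * (a + b) ^ 2 + 1 / 2 * (a - b) ^ 2 = a ^ 2 + b ^ 2 := by ring
  rw [hmid] at hconv
  have hsup : (a ^ 2) ^ (p / 2) + (b ^ 2) ^ (p / 2) ≤ (a ^ 2 + b ^ 2) ^ (p / 2) := by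
    have := NNReal.add_rpow_le_rpow_add ⟨a ^ 2, hx⟩ ⟨b ^ 2, hy⟩ hq
    exact_mod_cast this
  linarith

theorem defect_pos {p : ℝ} (hp : 2 < p) {a b : ℝ} (ha : a ≠ 0) (hb : b ≠ 0) : 0 < defect p a b := by
  unfold defect
  rw [abs_rpow_eq_sq_rpow (a + b), abs_rpow_eq_sq_rpow (a - b), abs_rpow_eq_sq_rpow a,
    abs_rpow_eq_sq_rpow b]
  have hq : 1 ≤ p / 2 := by linarith
  have hq' : 1 < p / 2 := by linarith
  have hX : (0 : ℝ) ≤ (a + b) ^ 2 := sq_nonneg _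
  have hY : (0 : ℝ) ≤ (a - b) ^ 2 := sq_nonneg _
  have hx : (0 : ℝ) < a ^ 2 := by positivity
  have hy : (0 : ℝ) < b ^ 2 := by positivity
  have hconv := (convexOn_rpow hq).2 (Set.mem_Ici.2 hX) (Set.mem_Ici.2 hY)
    (by norm_num : (0 : ℝ) ≤ 1 / 2) (by norm_num : (0 : ℝ) ≤ 1 / 2) (by norm_num : (1 / 2 : ℝ) + 1 / 2 = 1)
  simp only [smul_eq_mul] at hconv
  have hmid : (1 / 2 : ℝ) * (a + b) ^ 2 + 1 / 2 * (a - b) ^ 2 = a ^ 2 + b ^ 2 := by ring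
  rw [hmid] at hconv
  have hsup := rpow_add_lt_of_one_lt hq' hx hy
  linarith

theorem defect_nonpos {p : ℝ} (hp0 : 0 < p) (hp : p < 2) (a b : ℝ) : defect p a b ≤ 0 := by
  unfold defect
  rw [abs_rpow_eq_sq_rpow (a + b), abs_rpow_eq_sq_rpow (a - b), abs_rpow_eq_sq_rpow a,
    abs_rpow_eq_sq_rpow b]
  have hq0 : 0 ≤ p / 2 := by linarith
  have hq : p / 2 ≤ 1 := by linarith
  have hX : (0 : ℝ) ≤ (a + b) ^ 2 := sq_nonneg _
  have hY : (0 : ℝ) ≤ (a - b) ^ 2 := sq_nonneg _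
  have hx : (0 : ℝ) ≤ a ^ 2 := sq_nonneg _
  have hy : (0 : ℝ) ≤ b ^ 2 := sq_nonneg _
  have hconc := (Real.concaveOn_rpow hq0 hq).2 (Set.mem_Ici.2 hX) (Set.mem_Ici.2 hY)
    (by norm_num : (0 : ℝ) ≤ 1 / 2) (by norm_num : (0 : ℝ) ≤ 1 / 2) (by norm_num : (1 / 2 : ℝ) + 1 / 2 = 1)
  simp only [smul_eq_mul] at hconc
  have hmid : (1 / 2 : ℝ) * (a + b) ^ 2 + 1 / 2 * (a - b) ^ 2 = a ^ 2 + b ^ 2 := by ring
  rw [hmid] at hconc
  have hsub : (a ^ 2 + b ^ 2) ^ (p / 2) ≤ (a ^ 2) ^ (p / 2) + (b ^ 2) ^ (p / 2) := by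
    have := NNReal.rpow_add_le_add_rpow ⟨a ^ 2, hx⟩ ⟨b ^ 2, hy⟩ hq0 hq
    exact_mod_cast this
  linarith

theorem defect_neg {p : ℝ} (hp0 : 0 < p) (hp : p < 2) {a b : ℝ} (ha : a ≠ 0) (hb : b ≠ 0) :
    defect p a b < 0 := by
  unfold defect
  rw [abs_rpow_eq_sq_rpow (a + b), abs_rpow_eq_sq_rpow (a - b), abs_rpow_eq_sq_rpow a,
    abs_rpow_eq_sq_rpow b]
  have hq0 : 0 ≤ p / 2 := by linarith
  have hq : p / 2 ≤ 1 := by linarith
  have hq' : p / 2 < 1 := by linarith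
  have hX : (0 : ℝ) ≤ (a + b) ^ 2 := sq_nonneg _
  have hY : (0 : ℝ) ≤ (a - b) ^ 2 := sq_nonneg _
  have hx : (0 : ℝ) < a ^ 2 := by positivity
  have hy : (0 : ℝ) < b ^ 2 := by positivity
  have hconc := (Real.concaveOn_rpow hq0 hq).2 (Set.mem_Ici.2 hX) (Set.mem_Ici.2 hY)
    (by norm_num : (0 : ℝ) ≤ 1 / 2) (by norm_num : (0 : ℝ) ≤ 1 / 2) (by norm_num : (1 / 2 : ℝ) + 1 / 2 = 1)
  simp only [smul_eq_mul] at hconc
  have hmid : (1 / 2 : ℝ) * (a + b) ^ 2 + 1 / 2 * (a - b) ^ 2 = a ^ 2 + b ^ 2 := by ring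
  rw [hmid] at hconc
  have hsub := rpow_add_gt_of_lt_one hq' hx hy
  linarith

/-- Scalar Clarkson equality case: for `0 < p`, `p ≠ 2`, the defect vanishes only if `a * b = 0`. -/
theorem mul_eq_zero_of_defect_eq_zero {p : ℝ} (hp0 : 0 < p) (hp2 : p ≠ 2) {a b : ℝ}
    (h : defect p a b = 0) : a * b = 0 := by
  by_contra hab
  have ha : a ≠ 0 := left_ne_zero_of_mul hab
  have hb : b ≠ 0 := right_ne_zero_of_mul hab
  rcases lt_or_gt_of_ne hp2 with h2 | h2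
  · exact absurd h (defect_neg hp0 h2 ha hb).ne
  · exact absurd h (defect_pos h2 ha hb).ne'

/-- A finite sum of Clarkson defects vanishes only if all products vanish. -/
theorem mul_eq_zero_of_sum_defect_eq_zero {p : ℝ} (hp0 : 0 < p) (hp2 : p ≠ 2) {ι : Type*}
    (s : Finset ι) (u v : ι → ℝ) (h : ∑ i ∈ s, defect p (u i) (v i) = 0) :
    ∀ i ∈ s, u i * v i = 0 := by
  intro i hi
  apply mul_eq_zero_of_defect_eq_zero hp0 hp2
  rcases lt_or_gt_of_ne hp2 with h2 | h2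
  · have hneg : ∑ i ∈ s, -defect p (u i) (v i) = 0 := by
      rw [Finset.sum_neg_distrib, h, neg_zero]
    have := (Finset.sum_eq_zero_iff_of_nonneg (fun j _ => by
      have := defect_nonpos hp0 h2 (u j) (v j); linarith)).1 hneg i hi
    linarith
  · exact (Finset.sum_eq_zero_iff_of_nonneg (fun j _ => defect_nonneg h2 (u j) (v j))).1 h i hi

end Crest.Agent.Helper99.S0359
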