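import Crest.Agent.Helper99.S0359.Source

/-!
# Assembly for S0359 (helper99)

Grid configuration `0, ± row indicators, ± column indicators` on `Fin k × Fin k`, `k = (n-1)/4`,
padded by constants to `n` distinct points of `L^p(count)`; midpoint rigidity gives antipodes,
the Clarkson equality case gives disjoint supports of the row images and of the column images,
and every row image meets every column image, so `k^2 ≤ d`.
-/

set_option autoImplicit false
open MeasureTheory
open scoped ENNReal

namespace Crest.Agent.Helper99.S0359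

theorem clarkson_of_mul_eq_zero {r : ℝ} (hr : r ≠ 0) {a b : ℝ} (h : a * b = 0) :
    |a + b| ^ r + |a - b| ^ r = 2 * |a| ^ r + 2 * |b| ^ r := by
  rcases mul_eq_zero.1 h with rfl | rfl
  · simp [Real.zero_rpow hr]; ring
  · simp [Real.zero_rpow hr]; ring

theorem abs_add_eq_abs_sub_of_mul_eq_zero {a b : ℝ} (h : a = 0 ∨ b = 0) : |a + b| = |a - b| := by
  rcases h with rfl | rfl <;> simp

theorem main (p : ℝ≥0∞) [Fact (1 ≤ p)] (hp1 : 1 < p) (hptop : p ≠ ⊤) (hp2 : p ≠ 2)
    (n : ℕ) (hn : 9 ≤ n) (d : ℕ)
    (hd : ∀ (α : Type) [MeasurableSpace α] (μ : Measure α) (x : Fin n → Lp ℝ p μ),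
      Function.Injective x →
      ∃ (y : Fin n → PiLp p (fun _ : Fin d => ℝ)) (s : ℝ), 0 < s ∧
        ∀ i j, ‖y i - y j‖ = s * ‖x i - x j‖) :
    ((n - 1) / 4) ^ 2 ≤ d := by
  obtain ⟨k, hk⟩ : ∃ k, k = (n - 1) / 4 := ⟨_, rfl⟩
  rw [← hk]
  have hk2 : 2 ≤ k := by omega
  have hkn : 4 * k + 1 ≤ n := by omega
  obtain ⟨m, hm⟩ : ∃ m, m = n - (4 * k + 1) := ⟨_, rfl⟩
  have hcard : Fintype.card (Fin n) = Fintype.card (Spec k ⊕ Fin m) := by
    rw [Fintype.card_fin, Fintype.card_sum, card_spec, Fintype.card_fin]; omega
  let e : Fin n ≃ Spec k ⊕ Fin m := Fintype.equivOfCardEq hcard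
  let F : Spec k ⊕ Fin m → (Fin k × Fin k → ℝ) := Sum.elim (gfun k) (hfun k m)
  have hF : Function.Injective F :=
    Function.Injective.sumElim (gfun_injective k hk2) (hfun_injective k hk2 m)
      (gfun_ne_hfun k hk2 m)
  let x : Fin n → Lp ℝ p (Measure.count : Measure (Fin k × Fin k)) := fun i => emb p (F (e i))
  have hx : Function.Injective x := (emb_injective hp1 hptop).comp (hF.comp e.injective)
  obtain ⟨y, s, hs, hy⟩ := hd (Fin k × Fin k) Measure.count x hx
  obtain ⟨r, hr⟩ : ∃ r, r = p.toReal := ⟨_, rfl⟩
  have hr0 : 0 < r := hr ▸ toReal_pos_of hp1 hptop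
  have hsr : 0 < s ^ r := Real.rpow_pos_of_pos hs r
  -- translated images of the special points
  let Y : Spec k → PiLp p (fun _ : Fin d => ℝ) :=
    fun P => y (e.symm (Sum.inl P)) - y (e.symm (Sum.inl none))
  have hY0 : Y none = 0 := sub_self _
  have hT : ∀ P Q : Spec k,
      ‖Y P - Y Q‖ ^ r = s ^ r * ∑ a, |gfun k P a - gfun k Q a| ^ r := by
    intro P Q
    have h1 : Y P - Y Q = y (e.symm (Sum.inl P)) - y (e.symm (Sum.inl Q)) := by
      simp only [Y]; abel
    rw [h1, hy, Real.mul_rpow hs.le (norm_nonneg _)]
    congr 1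
    have h2 : x (e.symm (Sum.inl P)) - x (e.symm (Sum.inl Q)) = emb p (gfun k P - gfun k Q) := by
      simp only [x, Equiv.apply_symm_apply, F, Sum.elim_inl, emb_sub]
    rw [h2, hr, norm_emb_rpow hp1 hptop]
    rfl
  have hN : ∀ P : Spec k, ‖Y P‖ ^ r = s ^ r * ∑ a, |gfun k P a| ^ r := by
    intro P
    have := hT P none
    simpa [hY0, gfun_none] using this
  -- Step 1: antipodes
  have hneg : ∀ (b : Bool) (i : Fin k), Y (some (b, true, i)) = - Y (some (b, false, i)) := by
    intro b i
    have hnorm : ‖Y (some (b, false, i))‖ = ‖- Y (some (b, true, i))‖ := by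
      rw [norm_neg]
      apply (Real.rpow_left_inj (norm_nonneg _) (norm_nonneg _) hr0.ne').1
      rw [hN, hN]
      congr 1
      apply Finset.sum_congr rfl
      intro a _
      rw [gfun_neg, abs_neg]
    have hsum : ‖Y (some (b, false, i)) + - Y (some (b, true, i))‖ = 2 * ‖Y (some (b, false, i))‖ := by
      apply (Real.rpow_left_inj (norm_nonneg _) (by positivity) hr0.ne').1
      rw [← sub_eq_add_neg, hT, Real.mul_rpow (by norm_num) (norm_nonneg _), hN]
      have : ∀ a, |gfun k (some (b, false, i)) a - gfun k (some (b, true, i)) a| ^ r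
          = 2 ^ r * |gfun k (some (b, false, i)) a| ^ r := by
        intro a
        rw [gfun_neg, sub_neg_eq_add, ← two_mul, abs_mul, Real.mul_rpow (abs_nonneg _) (abs_nonneg _)]
        simp
      simp only [this, ← Finset.mul_sum]
      ring
    have := eq_of_norm_add_eq hp1 hptop _ _ hnorm hsum
    rw [this, neg_neg]
  -- Step 2: same-type images have disjoint supports
  have hdisj : ∀ (b : Bool) (i j : Fin k), i ≠ j →
      ∀ t, Y (some (b, false, i)) t * Y (some (b, false, j)) t = 0 := by
    intro b i j hij
    apply clarkson_eq_case hp1 hptop hp2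
    rw [← hr]
    have hplus : Y (some (b, false, i)) + Y (some (b, false, j))
        = Y (some (b, false, i)) - Y (some (b, true, j)) := by
      rw [hneg, sub_neg_eq_add]
    rw [hplus, hT, hT, hN, hN, ← mul_add]
    have : ∀ a, |gfun k (some (b, false, i)) a - gfun k (some (b, true, j)) a| ^ r
          + |gfun k (some (b, false, i)) a - gfun k (some (b, false, j)) a| ^ r
        = 2 * |gfun k (some (b, false, i)) a| ^ r + 2 * |gfun k (some (b, false, j)) a| ^ r := by
      intro a
      rw [gfun_neg, sub_neg_eq_add]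
      exact clarkson_of_mul_eq_zero hr0.ne' (gfun_mul_eq_zero k b hij a)
    rw [← Finset.sum_add_distrib]
    simp only [this, Finset.sum_add_distrib, ← Finset.mul_sum]
    ring
  -- Step 4: every row image meets every column image
  have hmeet : ∀ i j : Fin k, ∃ t, Y (some (false, false, i)) t ≠ 0 ∧
      Y (some (true, false, j)) t ≠ 0 := by
    intro i j
    by_contra hcon
    have hor : ∀ t, Y (some (false, false, i)) t = 0 ∨ Y (some (true, false, j)) t = 0 := by
      intro t
      by_contra h
      rw [not_or] at h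
      exact hcon ⟨t, h.1, h.2⟩
    have hnorms : ‖Y (some (false, false, i)) + Y (some (true, false, j))‖ ^ r
        = ‖Y (some (false, false, i)) - Y (some (true, false, j))‖ ^ r := by
      rw [hr, norm_rpow_eq_sum (hr ▸ hr0), norm_rpow_eq_sum (hr ▸ hr0)]
      apply Finset.sum_congr rfl
      intro t _
      have e1 : (Y (some (false, false, i)) + Y (some (true, false, j))) t
          = Y (some (false, false, i)) t + Y (some (true, false, j)) t := rfl
      have e2 : (Y (some (false, false, i)) - Y (some (true, false, j))) t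
          = Y (some (false, false, i)) t - Y (some (true, false, j)) t := rfl
      rw [e1, e2, abs_add_eq_abs_sub_of_mul_eq_zero (hor t)]
    have hplus : Y (some (false, false, i)) + Y (some (true, false, j))
        = Y (some (false, false, i)) - Y (some (true, true, j)) := by
      rw [hneg, sub_neg_eq_add]
    rw [hplus, hT, hT] at hnorms
    exact cross_ne k hr0 i j (mul_left_cancel₀ hsr.ne' hnorms)
  -- Step 5: counting
  choose τ hτ using hmeet
  have hinj : Function.Injective (fun a : Fin k × Fin k => τ a.1 a.2) := by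
    rintro ⟨i, j⟩ ⟨i', j'⟩ h
    simp only at h
    have hi : i = i' := by
      by_contra hne
      have h1 := hdisj false i i' hne (τ i j)
      have h2 := (hτ i j).1
      have h3 := (hτ i' j').1
      rw [← h] at h3
      exact (mul_ne_zero h2 h3) h1
    have hj : j = j' := by
      by_contra hne
      have h1 := hdisj true j j' hne (τ i j)
      have h2 := (hτ i j).2
      have h3 := (hτ i' j').2
      rw [← h] at h3
      exact (mul_ne_zero h2 h3) h1
    rw [hi, hj]
  have := Fintype.card_le_of_injective _ hinj
  simpa [Fintype.card_prod, sq] using this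

end Crest.Agent.Helper99.S0359
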