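import Crest.Agent.Helper99.S0359.Clarkson

/-!
# `PiLp` forms of the analytic core for S0359 (helper99)

* `norm_rpow_eq_sum` : `‖f‖ ^ p.toReal = ∑ i, |f i| ^ p.toReal`
* `clarkson_eq_case` : `‖u+v‖^p + ‖u-v‖^p = 2‖u‖^p + 2‖v‖^p → ∀ i, u i * v i = 0` (`p ≠ 2`)
* `eq_of_norm_add_eq` : midpoint rigidity `‖u‖ = ‖w‖ → ‖u + w‖ = 2‖u‖ → u = w` (`1 < p < ∞`),
  proved coordinatewise (Mathlib has no `StrictConvexSpace` instance for `PiLp`).
-/

set_option autoImplicit false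
open scoped ENNReal

namespace Crest.Agent.Helper99.S0359

variable {ι : Type*} [Fintype ι]

theorem toReal_pos_of {p : ℝ≥0∞} (hp1 : 1 < p) (hptop : p ≠ ⊤) : 0 < p.toReal :=
  ENNReal.toReal_pos (by rintro rfl; simp at hp1) hptop

theorem one_lt_toReal_of {p : ℝ≥0∞} (hp1 : 1 < p) (hptop : p ≠ ⊤) : 1 < p.toReal := by
  have := (ENNReal.toReal_lt_toReal ENNReal.one_ne_top hptop).2 hp1
  simpa using this

theorem toReal_ne_two_of {p : ℝ≥0∞} (hptop : p ≠ ⊤) (hp2 : p ≠ 2) : p.toReal ≠ 2 := by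
  intro h
  apply hp2
  have := ENNReal.ofReal_toReal hptop
  rw [h] at this
  rw [← this]
  simp

theorem norm_rpow_eq_sum {p : ℝ≥0∞} (hp : 0 < p.toReal) (f : PiLp p (fun _ : ι => ℝ)) :
    ‖f‖ ^ p.toReal = ∑ i, |f i| ^ p.toReal := by
  rw [PiLp.norm_eq_sum hp f, ← Real.rpow_mul (Finset.sum_nonneg fun i _ => by positivity)]
  rw [one_div, inv_mul_cancel₀ hp.ne', Real.rpow_one]
  simp [Real.norm_eq_abs]

/-- Clarkson equality case in `ℓ^p`, `p ≠ 2`: disjoint supports. -/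
theorem clarkson_eq_case {p : ℝ≥0∞} (hp1 : 1 < p) (hptop : p ≠ ⊤) (hp2 : p ≠ 2)
    (u v : PiLp p (fun _ : ι => ℝ))
    (h : ‖u + v‖ ^ p.toReal + ‖u - v‖ ^ p.toReal = 2 * ‖u‖ ^ p.toReal + 2 * ‖v‖ ^ p.toReal) :
    ∀ i, u i * v i = 0 := by
  have hp0 := toReal_pos_of hp1 hptop
  have hr2 := toReal_ne_two_of hptop hp2
  rw [norm_rpow_eq_sum hp0, norm_rpow_eq_sum hp0, norm_rpow_eq_sum hp0, norm_rpow_eq_sum hp0] at h
  have hsum : ∑ i, defect p.toReal (u i) (v i) = 0 := by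
    unfold defect
    simp only [Finset.sum_sub_distrib, Finset.sum_add_distrib, ← Finset.mul_sum]
    have e1 : ∀ i, (u + v) i = u i + v i := fun i => rfl
    have e2 : ∀ i, (u - v) i = u i - v i := fun i => rfl
    simp only [e1, e2] at h
    linarith
  intro i
  exact mul_eq_zero_of_sum_defect_eq_zero hp0 hr2 Finset.univ (fun i => u i) (fun i => v i) hsum i
    (Finset.mem_univ i)

/-- scalar midpoint convexity of `|t|^r`, `r ≥ 1`. -/
theorem half_abs_rpow_le {r : ℝ} (hr : 1 ≤ r) (a b : ℝ) :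
    |a + b| ^ r / 2 ^ r ≤ (|a| ^ r + |b| ^ r) / 2 := by
  have h2 : (0 : ℝ) < 2 ^ r := by positivity
  have hconv := (convexOn_rpow hr).2 (Set.mem_Ici.2 (abs_nonneg a)) (Set.mem_Ici.2 (abs_nonneg b))
    (by norm_num : (0 : ℝ) ≤ 1 / 2) (by norm_num : (0 : ℝ) ≤ 1 / 2) (by norm_num : (1 / 2 : ℝ) + 1 / 2 = 1)
  simp only [smul_eq_mul] at hconv
  have h1 : |a + b| ^ r / 2 ^ r = (|a + b| / 2) ^ r := by
    rw [Real.div_rpow (abs_nonneg _) (by norm_num)]
  have h3 : (|a + b| / 2) ^ r ≤ (1 / 2 * |a| + 1 / 2 * |b|) ^ r := by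
    apply Real.rpow_le_rpow (by positivity) _ (by linarith)
    have := abs_add_le a b
    linarith
  rw [h1]
  linarith

/-- strict scalar midpoint convexity of `|t|^r`, `r > 1`. -/
theorem half_abs_rpow_lt {r : ℝ} (hr : 1 < r) {a b : ℝ} (hab : a ≠ b) :
    |a + b| ^ r / 2 ^ r < (|a| ^ r + |b| ^ r) / 2 := by
  have h2 : (0 : ℝ) < 2 ^ r := by positivity
  have h1 : |a + b| ^ r / 2 ^ r = (|a + b| / 2) ^ r := by
    rw [Real.div_rpow (abs_nonneg _) (by norm_num)]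
  by_cases habs : |a| = |b|
  · -- then b = -a and a ≠ 0
    have hb : b = -a := by
      rcases abs_eq_abs.1 habs with h | h
      · exact absurd h hab
      · rw [h]; simp
    have ha : a ≠ 0 := by
      rintro rfl
      simp at hb
      exact hab hb.symm
    subst hb
    have hz : |a + -a| ^ r / 2 ^ r = 0 := by
      simp [Real.zero_rpow (by linarith : r ≠ 0)]
    rw [hz, abs_neg]
    have : 0 < |a| ^ r := Real.rpow_pos_of_pos (abs_pos.2 ha) r
    linarith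
  · have hconv := (strictConvexOn_rpow hr).2 (Set.mem_Ici.2 (abs_nonneg a)) (Set.mem_Ici.2 (abs_nonneg b))
      habs (by norm_num : (0 : ℝ) < 1 / 2) (by norm_num : (0 : ℝ) < 1 / 2) (by norm_num : (1 / 2 : ℝ) + 1 / 2 = 1)
    simp only [smul_eq_mul] at hconv
    have h3 : (|a + b| / 2) ^ r ≤ (1 / 2 * |a| + 1 / 2 * |b|) ^ r := by
      apply Real.rpow_le_rpow (by positivity) _ (by linarith)
      have := abs_add_le a b
      linarith
    rw [h1]
    linarith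

/-- Midpoint rigidity in `ℓ^p`, `1 < p < ∞`. -/
theorem eq_of_norm_add_eq {p : ℝ≥0∞} [Fact (1 ≤ p)] (hp1 : 1 < p) (hptop : p ≠ ⊤)
    (u w : PiLp p (fun _ : ι => ℝ)) (hn : ‖u‖ = ‖w‖) (h : ‖u + w‖ = 2 * ‖u‖) : u = w := by
  have hp0 := toReal_pos_of hp1 hptop
  have hr := one_lt_toReal_of hp1 hptop
  set r := p.toReal with hrdef
  have h2 : (0 : ℝ) < 2 ^ r := by positivity
  have hA : ‖u + w‖ ^ r / 2 ^ r = ‖u‖ ^ r := by
    rw [h, Real.mul_rpow (by norm_num) (norm_nonneg u)]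
    field_simp
  have hB : (‖u‖ ^ r + ‖w‖ ^ r) / 2 = ‖u‖ ^ r := by rw [hn]; ring
  rw [norm_rpow_eq_sum hp0] at hA hB
  rw [norm_rpow_eq_sum hp0 w] at hB
  rw [norm_rpow_eq_sum hp0 u] at hA
  have e1 : ∀ i, (u + w) i = u i + w i := fun i => rfl
  simp only [e1] at hA
  have hsum : ∑ i, ((|u i| ^ r + |w i| ^ r) / 2 - |u i + w i| ^ r / 2 ^ r) = 0 := by
    rw [Finset.sum_sub_distrib, ← Finset.sum_div, ← Finset.sum_div, Finset.sum_add_distrib]
    linarith
  have hzero := (Finset.sum_eq_zero_iff_of_nonneg (fun i _ => by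
    have := half_abs_rpow_le hr.le (u i) (w i); linarith)).1 hsum
  have hcoord : ∀ i, u i = w i := by
    intro i
    by_contra hne
    have := half_abs_rpow_lt hr hne
    have := hzero i (Finset.mem_univ i)
    linarith
  ext i
  exact hcoord i

end Crest.Agent.Helper99.S0359
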