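import Crest.Agent.Helper64.S0359.Defs
import Crest.Agent.Helper99.S0359.PiLpCore

/-!
# S0359 squad leaves A1, A2, B1 (helper99), in the exact form of helper64's Blueprint
-/

set_option autoImplicit false

namespace Crest.Agent.Helper99.S0359

open Crest.Agent.Helper64.S0359

/-- A1: midpoint convexity of `|t|^q`. -/
theorem abs_sub_rpow_le (q : ℝ) (hq : 1 < q) (a b : ℝ) :
    |a - b| ^ q ≤ 2 ^ (q - 1) * (|a| ^ q + |b| ^ q) := by
  have h := half_abs_rpow_le hq.le a (-b)
  rw [abs_neg, ← sub_eq_add_neg] at h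
  have h2 : (0 : ℝ) < 2 ^ q := by positivity
  have e : (2 : ℝ) ^ (q - 1) = 2 ^ q / 2 := Real.rpow_sub_one (by norm_num) q
  rw [e]
  rw [div_le_iff₀ h2] at h
  linarith

/-- A2: equality case of A1 (strict convexity). -/
theorem eq_neg_of_abs_sub_rpow_eq (q : ℝ) (hq : 1 < q) (a b : ℝ)
    (h : |a - b| ^ q = 2 ^ (q - 1) * (|a| ^ q + |b| ^ q)) : b = -a := by
  by_contra hne
  have hne' : a ≠ -b := fun hh => hne (by rw [hh, neg_neg])
  have hlt := half_abs_rpow_lt hq hne'
  rw [abs_neg, ← sub_eq_add_neg] at hlt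
  have h2 : (0 : ℝ) < 2 ^ q := by positivity
  have e : (2 : ℝ) ^ (q - 1) = 2 ^ q / 2 := Real.rpow_sub_one (by norm_num) q
  rw [e] at h
  rw [div_lt_iff₀ h2] at hlt
  linarith

/-- B1 (reflection; from A1, A2). -/
theorem energy_reflect {ι : Type*} [Fintype ι] (q : ℝ) (hq : 1 < q) (a b : ι → ℝ) (c : ℝ)
    (ha : energy q a = c) (hb : energy q b = c) (hab : energy q (a - b) = 2 ^ q * c) :
    b = -a := by
  unfold energy at ha hb hab
  have e : (2 : ℝ) ^ (q - 1) = 2 ^ q / 2 := Real.rpow_sub_one (by norm_num) q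
  have hsum : ∑ t, (2 ^ (q - 1) * (|a t| ^ q + |b t| ^ q) - |(a - b) t| ^ q) = 0 := by
    rw [Finset.sum_sub_distrib, ← Finset.mul_sum, Finset.sum_add_distrib, ha, hb, hab, e]
    ring
  have hzero := (Finset.sum_eq_zero_iff_of_nonneg (fun t _ => by
    have := abs_sub_rpow_le q hq (a t) (b t)
    have e1 : (a - b) t = a t - b t := rfl
    rw [e1]; linarith)).1 hsum
  funext t
  have h1 := hzero t (Finset.mem_univ t)
  have e1 : (a - b) t = a t - b t := rfl
  rw [e1] at h1
  exact eq_neg_of_abs_sub_rpow_eq q hq (a t) (b t) (by linarith)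

end Crest.Agent.Helper99.S0359
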