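import Crest.Agent.Helper99.S0359.PiLpCore

/-!
# Source side for S0359 (helper99): functions on a finite type inside `L^p` of the counting measure
-/

set_option autoImplicit false
open MeasureTheory
open scoped ENNReal

namespace Crest.Agent.Helper99.S0359

section Emb

variable {A : Type} [Fintype A] [MeasurableSpace A] [DiscreteMeasurableSpace A]

/-- A function on a finite discrete type as an element of `L^p` of the counting measure. -/
noncomputable def emb (p : ℝ≥0∞) (f : A → ℝ) : Lp ℝ p (Measure.count : Measure A) :=
  (MemLp.of_discrete : MemLp f p Measure.count).toLp f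

theorem emb_sub (p : ℝ≥0∞) (f g : A → ℝ) : emb p f - emb p g = emb p (f - g) :=
  (MemLp.toLp_sub _ _).symm

theorem norm_emb {p : ℝ≥0∞} (hp0 : p ≠ 0) (hptop : p ≠ ⊤) (f : A → ℝ) :
    ‖emb p f‖ = (∑ a, |f a| ^ p.toReal) ^ (p.toReal)⁻¹ := by
  unfold emb
  rw [Lp.norm_toLp, MemLp.eLpNorm_eq_integral_rpow_norm hp0 hptop MemLp.of_discrete,
    ENNReal.toReal_ofReal (by positivity), integral_fintype Integrable.of_finite]
  simp [Measure.real]

theorem norm_emb_rpow {p : ℝ≥0∞} (hp1 : 1 < p) (hptop : p ≠ ⊤) (f : A → ℝ) :
    ‖emb p f‖ ^ p.toReal = ∑ a, |f a| ^ p.toReal := by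
  have hp0 := toReal_pos_of hp1 hptop
  have hpne : p ≠ 0 := by rintro rfl; simp at hp1
  rw [norm_emb hpne hptop, ← Real.rpow_mul (Finset.sum_nonneg fun i _ => by positivity),
    inv_mul_cancel₀ hp0.ne', Real.rpow_one]

theorem emb_injective {p : ℝ≥0∞} (hp1 : 1 < p) (hptop : p ≠ ⊤) :
    Function.Injective (emb p : (A → ℝ) → Lp ℝ p (Measure.count : Measure A)) := by
  intro f g hfg
  have hp0 := toReal_pos_of hp1 hptop
  have h0 : ‖emb p (f - g)‖ ^ p.toReal = 0 := by
    rw [← emb_sub, hfg, sub_self, Lp.norm_zero, Real.zero_rpow hp0.ne']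
  rw [norm_emb_rpow hp1 hptop] at h0
  have hz := (Finset.sum_eq_zero_iff_of_nonneg (fun a _ => by positivity)).1 h0
  funext a
  have ha := hz a (Finset.mem_univ a)
  have : |(f - g) a| = 0 := by
    by_contra hne
    have hpos : 0 < |(f - g) a| := lt_of_le_of_ne (abs_nonneg _) (Ne.symm hne)
    have := Real.rpow_pos_of_pos hpos p.toReal
    linarith
  have h2 : (f - g) a = 0 := abs_eq_zero.1 this
  simpa [sub_eq_zero] using h2

end Emb

section Config

variable (k : ℕ)

/-- index type of the special points: `none` is the origin, `some (b, σ, i)` is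
`± (indicator of row i)` (`b = false`) or `± (indicator of column i)` (`b = true`),
with sign `-` iff `σ = true`. -/
abbrev Spec := Option (Bool × Bool × Fin k)

/-- coordinate selector -/
def coord (b : Bool) (a : Fin k × Fin k) : Fin k := if b then a.2 else a.1

/-- the special functions on the grid -/
noncomputable def gfun : Spec k → (Fin k × Fin k → ℝ)
  | none => fun _ => 0
  | some (b, σ, i) => fun a => (if σ then -1 else 1) * (if coord k b a = i then 1 else 0)

theorem gfun_none (a : Fin k × Fin k) : gfun k none a = 0 := rfl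

theorem gfun_neg (b : Bool) (i : Fin k) (a : Fin k × Fin k) :
    gfun k (some (b, true, i)) a = - gfun k (some (b, false, i)) a := by
  simp only [gfun]
  by_cases h : coord k b a = i <;> simp [h]

theorem gfun_mul_eq_zero (b : Bool) {i j : Fin k} (hij : i ≠ j) (a : Fin k × Fin k) :
    gfun k (some (b, false, i)) a * gfun k (some (b, false, j)) a = 0 := by
  simp only [gfun]
  by_cases h1 : coord k b a = i
  · have h2 : coord k b a ≠ j := fun h => hij (h1.symm.trans h)
    simp [h2]
  · simp [h1]

theorem gfun_diag (b σ : Bool) (i : Fin k) :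
    gfun k (some (b, σ, i)) (i, i) = if σ then -1 else 1 := by
  cases b <;> simp [gfun, coord]

theorem gfun_abs_le (P : Spec k) (a : Fin k × Fin k) : |gfun k P a| ≤ 1 := by
  rcases P with _ | ⟨b, σ, i⟩
  · simp [gfun]
  · simp only [gfun]
    split_ifs <;> simp

theorem gfun_injective (hk : 2 ≤ k) : Function.Injective (gfun k) := by
  intro P Q hPQ
  rcases P with _ | ⟨b, σ, i⟩ <;> rcases Q with _ | ⟨b', σ', i'⟩
  · rfl
  · exfalso
    have := congrFun hPQ (i', i')
    rw [gfun_none, gfun_diag] at this
    split_ifs at this <;> norm_num at this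
  · exfalso
    have := congrFun hPQ (i, i)
    rw [gfun_none, gfun_diag] at this
    split_ifs at this <;> norm_num at this
  · have h1 := congrFun hPQ (i, i)
    rw [gfun_diag] at h1
    have hi : coord k b' (i, i) = i' := by
      by_contra hne
      simp only [gfun, hne, if_false, mul_zero] at h1
      split_ifs at h1 <;> norm_num at h1
    have hii : i = i' := by
      cases b' <;> simpa [coord] using hi
    subst hii
    rw [gfun_diag] at h1
    have hσ : σ = σ' := by
      cases σ <;> cases σ' <;> simp at h1 <;> first | rfl | norm_num at h1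
    subst hσ
    have hb : b = b' := by
      by_contra hne
      have : Nontrivial (Fin k) := Fin.nontrivial_iff_two_le.2 hk
      obtain ⟨j, hj⟩ := exists_ne i
      cases b <;> cases b'
      · exact hne rfl
      · -- row i vs column i at (i, j)
        have := congrFun hPQ (i, j)
        simp only [gfun, coord] at this
        simp [hj] at this
        split_ifs at this <;> norm_num at this
      · have := congrFun hPQ (i, j)
        simp only [gfun, coord] at this
        simp [hj] at this
        split_ifs at this <;> norm_num at this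
      · exact hne rfl
    subst hb
    rfl

/-- the padding functions: constants `t + 2` -/
noncomputable def hfun (m : ℕ) : Fin m → (Fin k × Fin k → ℝ) := fun t _ => (t : ℝ) + 2

theorem hfun_injective (hk : 2 ≤ k) (m : ℕ) : Function.Injective (hfun k m) := by
  intro t t' h
  have := congrFun h (⟨0, by omega⟩, ⟨0, by omega⟩)
  simp only [hfun] at this
  have h2 : (t : ℝ) = (t' : ℝ) := by linarith
  exact Fin.ext (by exact_mod_cast h2)

theorem gfun_ne_hfun (hk : 2 ≤ k) (m : ℕ) (P : Spec k) (t : Fin m) : gfun k P ≠ hfun k m t := by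
  intro h
  have h1 := congrFun h (⟨0, by omega⟩, ⟨0, by omega⟩)
  have h2 := gfun_abs_le k P (⟨0, by omega⟩, ⟨0, by omega⟩)
  rw [h1] at h2
  simp only [hfun] at h2
  have h3 : (0 : ℝ) ≤ (t : ℝ) := by positivity
  rw [abs_of_nonneg (by linarith)] at h2
  linarith

theorem card_spec : Fintype.card (Spec k) = 4 * k + 1 := by
  simp [Spec, Fintype.card_option, Fintype.card_prod]
  ring

/-- row/column cross inequality: `Σ |ρ_i + γ_j|^r ≠ Σ |ρ_i - γ_j|^r`. -/
theorem cross_ne {r : ℝ} (hr : 0 < r) (i j : Fin k) :
    (∑ a, |gfun k (some (false, false, i)) a - gfun k (some (true, true, j)) a| ^ r) ≠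
      ∑ a, |gfun k (some (false, false, i)) a - gfun k (some (true, false, j)) a| ^ r := by
  apply ne_of_gt
  apply Finset.sum_lt_sum
  · intro a _
    apply Real.rpow_le_rpow (abs_nonneg _) _ hr.le
    simp only [gfun, coord]
    split_ifs <;> norm_num
  · refine ⟨(i, j), Finset.mem_univ _, ?_⟩
    simp only [gfun, coord]
    simp only [if_true, Bool.false_eq_true, if_false]
    norm_num
    rw [Real.zero_rpow hr.ne']
    positivity

end Config

end Crest.Agent.Helper99.S0359
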